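import Vale.Agent.P284.H500.Iit.K270

/-!
# P270: generalised abundance on compact Kähler manifolds with universal covering `ℂⁿ`

`Z` is a connected compact Kähler manifold of dimension `n ≥ 1` with universal covering `ℂⁿ`; or the
holomorphic functions of its universal covering separate points, `Z` is special or dominated by a complex
vector space, and its fundamental group is amenable or `Z` has many entire curves (`IsUnifK`).

1. `Z` is a finite étale quotient of a complex torus (Iitaka's conjecture for the universal covering `ℂⁿ`).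
2. Let `(Z, B)` be log canonical, `B = (1/m) div s` effective, and `M` any nef line bundle. Then
   `K_Z + B + M` is nef and numerically semiample, and it is semiample if some multiple of `B + M` is
   effective.
3. Let `π : X → Z` be the projective bundle of a direct sum of line bundles `L_0, …, L_r` on `Z`,
   `r ≥ 1`, `H` the tautological line bundle, `B = (1/m) div s`, `s` a nonzero section of
   `H^e ⊗ π^*N`, `(X, B)` klt, `m (r + 1) ≤ e` and `M = H^f ⊗ π^*N'` nef. Then `K_X + B + M` is nef and
   numerically semiample, and it is semiample if some multiple of `B + M` is effective.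
-/

open scoped Manifold ContDiff

noncomputable section

namespace Vale.Agent.Results.P270.UniversalCover

open Vale.Agent.P272.K Vale.Agent.P285.H281.FD Vale.Agent.P285.H766.PB Vale.Agent.P284.H500.Iit

theorem result (n : ℕ) (hn : 1 ≤ n) (Z : Type) [TopologicalSpace Z] [T2Space Z] [CompactSpace Z]
    [ConnectedSpace Z] [ChartedSpace (Cm n) Z] [IsManifold 𝓘(ℂ, Cm n) ω Z]
    (wZ : Chart n Z → Cm n → Matrix (Fin n) (Fin n) ℂ) (hwZ : IsKahler wZ) (hZ : IsUnifK n Z) :
    IsTorusQuot n Z ∧
    (∀ w : Chart n Z → Cm n → Matrix (Fin n) (Fin n) ℂ, IsKahler w → ∀ D : Bd Z, IsLB n D → ∀ s, IsSec n D s → (∃ x, NZ D s x) →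
      ∀ m : ℕ, 1 ≤ m → Lc n m D s → ∀ L : Bd Z, IsLB n L → Nef w L →
        Nef w (((Bd.can n Z).pow m).mul (D.mul (L.pow m))) ∧
        NumSemiample n (((Bd.can n Z).pow m).mul (D.mul (L.pow m))) ∧
        ((∃ k : ℕ, 1 ≤ k ∧ ∃ t, IsSec n ((D.mul (L.pow m)).pow k) t ∧
            ∃ x, NZ ((D.mul (L.pow m)).pow k) t x) →
          Semiample n (((Bd.can n Z).pow m).mul (D.mul (L.pow m))))) ∧
    (∀ r : ℕ, 1 ≤ r → ∀ (X : Type) [TopologicalSpace X] [T2Space X] [CompactSpace X]
      [ConnectedSpace X] [ChartedSpace (Cm (n + r)) X] [IsManifold 𝓘(ℂ, Cm (n + r)) ω X]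
      (w' : Chart (n + r) X → Cm (n + r) → Matrix (Fin (n + r)) (Fin (n + r)) ℂ), IsKahler w' →
      ∀ L : Fin (r + 1) → Bd Z, (∀ j, IsLB n (L j)) → ∀ (π : X → Z) (H : Bd X), IsLB (n + r) H →
      ∀ t : (j : Fin (r + 1)) → H.ι → (L j).ι → X → ℂ, IsPB n r L π H t →
      ∀ (N : Bd Z), IsLB n N → ∀ (e : ℕ) (s : H.ι × N.ι → X → ℂ),
      IsSec (n + r) ((H.pow e).mul (pull π N)) s → (∃ x, NZ ((H.pow e).mul (pull π N)) s x) →
      ∀ m : ℕ, 1 ≤ m → Klt (n + r) m ((H.pow e).mul (pull π N)) s → m * (r + 1) ≤ e →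
      ∀ (f : ℕ) (N' : Bd Z), IsLB n N' → Nef w' ((H.pow f).mul (pull π N')) →
        Nef w' (((Bd.can (n + r) X).pow m).mul (((H.pow e).mul (pull π N)).mul
          (((H.pow f).mul (pull π N')).pow m))) ∧
        NumSemiample (n + r) (((Bd.can (n + r) X).pow m).mul (((H.pow e).mul (pull π N)).mul
          (((H.pow f).mul (pull π N')).pow m))) ∧
        ((∃ k : ℕ, 1 ≤ k ∧ ∃ v, IsSec (n + r) ((((H.pow e).mul (pull π N)).mul
            (((H.pow f).mul (pull π N')).pow m)).pow k) v ∧
            ∃ x, NZ ((((H.pow e).mul (pull π N)).mul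
              (((H.pow f).mul (pull π N')).pow m)).pow k) v x) →
          Semiample (n + r) (((Bd.can (n + r) X).pow m).mul (((H.pow e).mul (pull π N)).mul
            (((H.pow f).mul (pull π N')).pow m))))) :=
  K270.final n hn Z wZ hwZ hZ

end Vale.Agent.Results.P270.UniversalCover
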